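import Vale.Agent.P281.H498.LD.Thin

/-! P281, the logarithmic case, row LD-2: block TK from the existence of the tensors. -/

open scoped Manifold ContDiff Topology ComplexOrder
open Set Filter Vale.Agent.P281.J Vale.Agent.P272.K Vale.Agent.P272.K.AMP Vale.Agent.P299
open Vale.Agent.P299.H882 (J xi qf)
open Vale.Agent.P272.K.INT (IsClosedForm)

noncomputable section

namespace Vale.Agent.P281.H498

open Vale.Agent.P281 Vale.Agent.P281.MF Vale.Agent.P281.ISO Vale.Agent.P281.H713.SA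
open Vale.Agent.P281.H716 Vale.Agent.P299.D Vale.Agent.P281.H787 Vale.Agent.P281.H713.KD

/-- the pulled back tensors exist -/
def HasTens (n p : ℕ) {X Z Y : Type} [TopologicalSpace X]
    [ChartedSpace (Cm n) X] [TopologicalSpace Z] [ChartedSpace (Cm n) Z]
    [TopologicalSpace Y] [ChartedSpace (Cm p) Y]
    (j : Z → X) (f : Z → Y) (𝒢 : Set (Set Y)) (Δ : Set X → ℝ) (Δ' : Set Z → ℝ) : Prop :=
  ∀ (μ : ℕ) (K : Set X → ℕ) (_ : ∀ D, (K D : ℝ) = μ * Δ D) (k : Set Y → ℕ)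
    (_ : ∀ G, (k G : ℝ) ≤ μ * J.orbBase' (Cm n) (Cm p) f Δ' G) (_ : ∀ G, k G ≠ 0 → G ∈ 𝒢)
    (σ : Y → ℂ)
    (_ : IsSection (Cm p) (fun (D : Set Y) z g => J.IsLocalEq (Cm p) D g z) μ k σ),
    ∃ τ : Ten n (μ * p) X, IsTenP (μ * p) K τ ∧
      ∀ e z, At e (j z) → f z ∉ ⋃₀ 𝒢 → (∀ D, Δ D ≠ 0 → j z ∉ D) →
        ∀ I, τ e (e (j z)) I = σ (f z) * tT f μ (fun z => e (j z)) I z

section

variable {n p M : ℕ} {X Z Y : Type} [TopologicalSpace X] [T2Space X] [CompactSpace X]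
  [ChartedSpace (Cm n) X] [IsManifold 𝓘(ℂ, Cm n) ω X]
  [TopologicalSpace Z] [ChartedSpace (Cm n) Z] [IsManifold 𝓘(ℂ, Cm n) ω Z]
  [TopologicalSpace Y] [T2Space Y] [ConnectedSpace Y]
  [ChartedSpace (Cm p) Y] [IsManifold 𝓘(ℂ, Cm p) ω Y]
  {j : Z → X} {f : Z → Y} {𝒢 : Set (Set Y)}

theorem IsThin.setup (h𝒢 : IsThin p f 𝒢) (hj : J.IsBigOpen (Cm n) j)
    (hf : ContMDiff 𝓘(ℂ, Cm n) 𝓘(ℂ, Cm p) ω f) {Δ : Set X → ℝ} (hsnc : J.IsSNC (Cm n) Δ)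
    {Dv : Fin M → Set X} (hDv : ∀ D, Δ D ≠ 0 ↔ ∃ i, Dv i = D) :
    Setup n p j f (⋃₀ 𝒢) Dv := by
  have hs := JB.snc hsnc
  have hΩd := h𝒢.denseX hj
  obtain ⟨hj0, hj₁, hj₂, hthinj⟩ := id hj
  have hDpr : ∀ i, IsPrimeDivisor (Cm n) (Dv i) := fun i => hs.prime _ ((hDv _).2 ⟨i, rfl⟩)
  have h0 : {x : X | ∀ i, x ∉ Dv i} = ⋂ i, (Dv i)ᶜ := by
    ext x
    simp
  have hdD : Dense {x : X | ∀ i, x ∉ Dv i} := by
    rw [h0]
    exact dense_iInter_of_isOpen (fun i => (hDpr i).1.isOpen_compl)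
      fun i => dense_compl_prime (hDpr i)
  have hoD : IsOpen {x : X | ∀ i, x ∉ Dv i} := by
    rw [h0]
    exact isOpen_iInter_of_finite fun i => (hDpr i).1.isOpen_compl
  exact
    { hj := fun z => hj0 z
      emb := hj₁
      inj := hj₂
      hf := fun z => hf z
      closedS := h𝒢.closed
      dense := hΩd.inter_of_isOpen_right hdD hoD
      closedD := fun i => (hDpr i).1
      denseD := hdD }

end

/-- **block TK** from the existence of the tensors -/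
theorem tenPart_abs {n p M : ℕ} {X Z Y : Type}
    [TopologicalSpace X] [T2Space X] [CompactSpace X] [ConnectedSpace X]
    [ChartedSpace (Cm n) X] [IsManifold 𝓘(ℂ, Cm n) ω X]
    [TopologicalSpace Z] [ChartedSpace (Cm n) Z] [IsManifold 𝓘(ℂ, Cm n) ω Z]
    [TopologicalSpace Y] [T2Space Y] [ConnectedSpace Y]
    [ChartedSpace (Cm p) Y] [IsManifold 𝓘(ℂ, Cm p) ω Y]
    {χ : FormM n X} (hχ : IsKahler χ)
    {j : Z → X} (hj : IsBigOpen (Cm n) j) {f : Z → Y} (hf : ContMDiff 𝓘(ℂ, Cm n) 𝓘(ℂ, Cm p) ω f)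
    {Δ : Set X → ℝ} (hsnc : IsSNC (Cm n) Δ) {Δ' : Set Z → ℝ}
    {𝒢 : Set (Set Y)} (h𝒢 : IsThin p f 𝒢) (htens : HasTens n p j f 𝒢 Δ Δ')
    {Dv : Fin M → Set X} (hinj : Function.Injective Dv) (hDv : ∀ D, Δ D ≠ 0 ↔ ∃ i, Dv i = D)
    {r : Fin M → X → ℝ} {R : Fin M → FormM n X} (hR : IsBd Dv r R)
    {m : ℕ} (hm : 0 < m) {k : Set Y → ℕ}
    (hk : ∀ G, (k G : ℝ) ≤ m * orbBase' (Cm n) (Cm p) f Δ' G) (hkG : ∀ G, k G ≠ 0 → G ∈ 𝒢)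
    {σ₀ σ₁ : Y → ℂ}
    (hσ₀ : IsSection (Cm p) (fun (D : Set Y) z g => J.IsLocalEq (Cm p) D g z) m k σ₀)
    (hσ₁ : IsSection (Cm p) (fun (D : Set Y) z g => J.IsLocalEq (Cm p) D g z) m k σ₁) :
    ∃ (μ l : ℕ) (K : Fin M → ℕ) (N₀ N₁ : FormM n X → X → ℝ), 0 < l ∧ μ = m * l ∧
      (∀ i, (K i : ℝ) ≤ μ * Δ (Dv i)) ∧
      IsDecPair Dv r χ p μ K N₀ N₁ ∧
      (∀ g x, IsKahler g → 0 < N₀ g x → 0 < N₁ g x →
        Real.log (N₁ g x) - Real.log (N₀ g x) = Real.log (N₁ χ x) - Real.log (N₀ χ x)) ∧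
      ∀ z, f z ∉ ⋃₀ 𝒢 → (∀ i, j z ∉ Dv i) →
        Function.Surjective (mfderiv 𝓘(ℂ, Cm n) 𝓘(ℂ, Cm p) f z) → σ₀ (f z) ≠ 0 → σ₁ (f z) ≠ 0 →
        0 < N₀ χ (j z) ∧ 0 < N₁ χ (j z) ∧ Real.log (N₁ χ (j z)) - Real.log (N₀ χ (j z)) =
          l * (Real.log (‖σ₁ (f z)‖ ^ 2) - Real.log (‖σ₀ (f z)‖ ^ 2)) := by
  classical
  have norm := H787.KD.normPart
  have gram := gramPart
  have exact := H787.KD.exactPart
  have hs := JB.snc hsnc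
  have h𝒢pr := h𝒢.prime
  set S : Set Y := ⋃₀ 𝒢 with hS
  have hset : Setup n p j f S Dv := h𝒢.setup hj hf hsnc hDv
  have hDpr : ∀ i, IsPrimeDivisor (Cm n) (Dv i) := fun i => hs.prime _ ((hDv _).2 ⟨i, rfl⟩)
  have hdD := hset.denseD
  -- denominators
  obtain ⟨l, hl, K₁, hK₁, -⟩ := exists_denominator hs
  set μ : ℕ := m * l with hμ
  have hμ0 : 0 < μ := Nat.mul_pos hm hl
  set K' : Set X → ℕ := fun D => m * K₁ D with hK'
  have hK'Δ : ∀ D, (K' D : ℝ) = μ * Δ D := by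
    intro D
    simp only [hK', hμ]
    push_cast
    rw [hK₁]
    ring
  set k' : Set Y → ℕ := fun G => k G * l with hk'
  have hk'B : ∀ G, (k' G : ℝ) ≤ μ * J.orbBase' (Cm n) (Cm p) f Δ' G := by
    intro G
    simp only [hk', hμ]
    push_cast
    calc (k G : ℝ) * l ≤ (m * J.orbBase' (Cm n) (Cm p) f Δ' G) * l :=
          mul_le_mul_of_nonneg_right (hk G) (Nat.cast_nonneg l)
      _ = m * l * J.orbBase' (Cm n) (Cm p) f Δ' G := by ring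
  have hk'G : ∀ G, k' G ≠ 0 → G ∈ 𝒢 := fun G hG => hkG G (left_ne_zero_of_mul hG)
  set s₀ : Y → ℂ := fun y => σ₀ y ^ l with hs₀
  set s₁ : Y → ℂ := fun y => σ₁ y ^ l with hs₁
  have hsec₀' : IsSection (Cm p) (fun (D : Set Y) z g => IsLocalEq (Cm p) D g z) μ k' s₀ :=
    isSection_pow hσ₀ l
  have hsec₁' : IsSection (Cm p) (fun (D : Set Y) z g => IsLocalEq (Cm p) D g z) μ k' s₁ :=
    isSection_pow hσ₁ l
  have hsecS : ∀ {s : Y → ℂ}, IsSection (Cm p) (fun (D : Set Y) z g => IsLocalEq (Cm p) D g z) μ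
      k' s → IsSec p μ S s := by
    intro s hsec y hy
    refine section_local hsec fun G hG => ?_
    have hG' : G ∈ 𝒢 := hk'G G hG
    obtain ⟨g, hg⟩ := (show IsPrimeDivisor (Cm p) G from h𝒢pr G hG').2.1 y
    exact ⟨g, hg, fun h0 => hy (mem_sUnion_of_mem (hg.mem_iff.2 h0) hG')⟩
  have hsec₀ := hsecS hsec₀'
  have hsec₁ := hsecS hsec₁'
  -- the tensors
  obtain ⟨τ₀, hτ₀, hpull₀⟩ := htens μ K' hK'Δ k' hk'B hk'G s₀ hsec₀'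
  obtain ⟨τ₁, hτ₁, hpull₁⟩ := htens μ K' hK'Δ k' hk'B hk'G s₁ hsec₁'
  have hK'D : ∀ D, K' D ≠ 0 → ∃ i, Dv i = D := by
    intro D hD
    refine (hDv D).1 fun h0 => hD ?_
    have := hK'Δ D
    rw [h0, mul_zero] at this
    exact_mod_cast this
  have hp₀ : IsPull p μ j f S Dv s₀ τ₀ := by
    intro e z h hz hzD I
    refine hpull₀ e z h hz (fun D hD hzD' => ?_) I
    obtain ⟨i, rfl⟩ := (hDv D).1 hD
    exact hzD i hzD'
  have hp₁ : IsPull p μ j f S Dv s₁ τ₁ := by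
    intro e z h hz hzD I
    refine hpull₁ e z h hz (fun D hD hzD' => ?_) I
    obtain ⟨i, rfl⟩ := (hDv D).1 hD
    exact hzD i hzD'
  obtain ⟨K, hKle, hT₀, hT₁, hex⟩ := exact n (μ * p) M X Dv hinj hDpr
    (fun e x hx => by
      obtain ⟨g, -, hg, -⟩ := eqs_exist hR hx
      exact ⟨g, hg⟩) (fun i => K' (Dv i)) τ₀ τ₁ (isTenK_of hinj hK'D hτ₀)
    (isTenK_of hinj hK'D hτ₁)
  obtain ⟨N₀, N₁, hN₀, hN₁, hhol⟩ := norm n (μ * p) M X Dv r R hR K τ₀ τ₁ hT₀ hT₁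
    (((p.factorial : ℝ) ^ μ)⁻¹) (by positivity)
  have hover : ∀ i, K i ≠ 0 → ∀ z, j z ∈ Dv i → f z ∈ S := fun i hi z hz =>
    over_S hset hR hT₀ hT₁ hsec₀ hsec₁ hp₀ hp₁ i hi (hex i hi) hz
  -- divisibility
  have hclB : IsClosed (⋃ i, Dv i) := isClosed_iUnion_of_finite fun i => (hDpr i).1
  have hdB : Dense (⋃ i, Dv i)ᶜ := by
    have h1 : (⋃ i, Dv i)ᶜ = {x : X | ∀ i, x ∉ Dv i} := by
      ext x
      simp
    rw [h1]
    exact hdD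
  have hkeyAt : ∀ {s : Y → ℂ} {τ : Ten n (μ * p) X}, IsPull p μ j f S Dv s τ →
      KeyAt Dv K τ := by
    intro s τ hp e x g a h hg ha i hi I t c
    refine keyThin h𝒢 hj hf (D := Dv i) (hover i hi) (B := ⋃ i, Dv i) hclB hdB
      h (hg.1 i) (hg.2 i) ha.1 ?_ I t c
    filter_upwards [ev_of_chart h ha.2, hg.ev h, e.open_source.mem_nhds h.2] with y h1 h2 h3 z hzy
      hzS hzB
    subst hzy
    have hzD : ∀ i, j z ∉ Dv i := fun i hi => hzB (mem_iUnion_of_mem i hi)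
    have h4 := (h2.ne hzD).self_of_nhds
    refine ⟨s (f z) * ∏ i, g i (e (j z)) ^ K i, fun I => ?_⟩
    rw [← h1 h4 I, hp e z ⟨h.1, h3⟩ hzS hzD I]
    ring
  have hkey₀ := hkeyAt hp₀
  have hkey₁ := hkeyAt hp₁
  refine ⟨μ, l, K, N₀, N₁, hl, rfl, fun i => ?_, ⟨?_, ?_, ?_, hhol χ hχ, ?_, ?_⟩, ?_, ?_⟩
  · rw [← hK'Δ (Dv i)]
    exact_mod_cast hKle i
  · exact fun g hg => ⟨hN₀.smooth g hg, hN₁.smooth g hg⟩
  · exact fun g x hg => ⟨hN₀.nonneg g x hg, hN₁.nonneg g x hg⟩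
  · intro G x hG
    have h : At (chartAt (Cm n) x : Chart n X) x := AMP.at_chartAt x
    obtain ⟨g, ψ, hg, hψ⟩ := eqs_exist hR h
    obtain ⟨a₀, ha₀⟩ := hT₀.num _ x h g hg
    obtain ⟨a₁, ha₁⟩ := hT₁.num _ x h g hg
    exact ⟨(norm_pos hN₀ hG h hg ha₀).trans (norm_pos hN₀ hχ h hg ha₀).symm,
      (norm_pos hN₁ hG h hg ha₁).trans (norm_pos hN₁ hχ h hg ha₁).symm⟩
  · intro i hi x hx hcon
    have h : At (chartAt (Cm n) x : Chart n X) x := AMP.at_chartAt x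
    obtain ⟨g, ψ, hg, hψ⟩ := eqs_exist hR h
    obtain ⟨a₀, ha₀⟩ := hT₀.num _ x h g hg
    obtain ⟨a₁, ha₁⟩ := hT₁.num _ x h g hg
    refine hex i hi _ x h hx g a₀ a₁ hg ha₀ ha₁ ?_
    filter_upwards [hcon, hg.ev h, ha₀.ev h, ha₁.ev h,
      (chartAt (Cm n) x).open_source.mem_nhds h.2] with y h1 h2 h3 h4 h5 hy
    have h6 := h1 hy
    have h7 := hN₀.nonneg χ y hχ
    have h8 := hN₁.nonneg χ y hχ
    have hy' : At (chartAt (Cm n) x : Chart n X) y := ⟨h.1, h5⟩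
    exact ⟨(hN₀.zero χ _ y g a₀ hχ hy' h2 h3).1 (by linarith),
      (hN₁.zero χ _ y g a₁ hχ hy' h2 h4).1 (by linarith)⟩
  · refine ⟨{x | (∃ z, j z = x ∧ f z ∉ S) ∧ ∀ i, x ∉ Dv i}, hset.dense, fun a ha => ?_⟩
    obtain ⟨C, hC⟩ := bound_all hset hR hχ hT₀ hT₁ hsec₀ hsec₁ hp₀ hp₁ hkey₀ hkey₁ ⟨0, hμ0⟩
      hN₀ hN₁ ha
    refine ⟨C, ?_⟩
    rintro x ⟨⟨z, rfl, hz⟩, hzD⟩
    obtain ⟨e, h, hbd⟩ := hC (j z)
    obtain ⟨C₀, hC₀h, -, hC₀⟩ := exists_coef hset hsec₀ hz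
    obtain ⟨C₁, hC₁h, -, hC₁⟩ := exists_coef hset hsec₁ hz
    refine ⟨fun i => r_pos hR (hzD i), e, bm n p j f e z, fun y => C₀ (jinv j z (e.symm y)),
      fun y => C₁ (jinv j z (e.symm y)), h, fun a l => bm_analytic hset h a l,
      analytic_jinv hset h hC₀h, analytic_jinv hset h hC₁h, fun G hG => ?_, fun k1 i hi => ?_⟩
    · filter_upwards [norm_form gram hset hR hT₀ hp₀ hN₀ hC₀ hz hzD h hG,
        norm_form gram hset hR hT₁ hp₁ hN₁ hC₁ hz hzD h hG] with y h1 h2 using ⟨h1, h2⟩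
    · exact hbd k1 z rfl hz hzD i hi
  · intro G x hG h0 h1
    have hq := norm_quot gram hset hR hT₀ hT₁ hsec₀ hsec₁ hp₀ hp₁ hN₀ hN₁ hχ hG x
    have h : At (chartAt (Cm n) x : Chart n X) x := AMP.at_chartAt x
    obtain ⟨g, ψ, hg, hψ⟩ := eqs_exist hR h
    obtain ⟨a₀, ha₀⟩ := hT₀.num _ x h g hg
    obtain ⟨a₁, ha₁⟩ := hT₁.num _ x h g hg
    have h2 : 0 < N₀ χ x := (norm_pos hN₀ hχ h hg ha₀).2 ((norm_pos hN₀ hG h hg ha₀).1 h0)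
    have h3 : 0 < N₁ χ x := (norm_pos hN₁ hχ h hg ha₁).2 ((norm_pos hN₁ hG h hg ha₁).1 h1)
    have h4 := congrArg Real.log hq
    rw [Real.log_mul h1.ne' h2.ne', Real.log_mul h3.ne' h0.ne'] at h4
    linarith
  · intro z hz hzD hsurj hz0 hz1
    have hs0 : s₀ (f z) ≠ 0 := pow_ne_zero _ hz0
    have hs1 : s₁ (f z) ≠ 0 := pow_ne_zero _ hz1
    have h0 := norm_pos_good hset hR hT₀ hp₀ hN₀ hχ hz hzD hsurj hs0
    have h1 := norm_pos_good hset hR hT₁ hp₁ hN₁ hχ hz hzD hsurj hs1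
    refine ⟨h0, h1, ?_⟩
    rw [log_good gram hset hR hT₀ hT₁ hsec₀ hsec₁ hp₀ hp₁ hN₀ hN₁ hχ hz hzD h0 h1]
    have h2 : ∀ t : ℂ, Real.log (‖t ^ l‖ ^ 2) = l * Real.log (‖t‖ ^ 2) := by
      intro t
      rw [norm_pow, ← pow_mul, mul_comm l 2, pow_mul, Real.log_pow]
    simp only [hs₀, hs₁]
    rw [h2, h2]
    ring

end Vale.Agent.P281.H498
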