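import Vale.Agent.P281.H716.LD.Defs
import Vale.Agent.P281.H498.KD.TL

/-! P281, the logarithmic case: the existence of the tensors, as a proposition. -/

open scoped Manifold ContDiff Topology ComplexOrder
open Set Filter Vale.Agent.P272.K

noncomputable section

namespace Vale.Agent.P281.H498

open Vale.Agent.P281 Vale.Agent.P281.MF Vale.Agent.P281.ISO Vale.Agent.P281.H713.SA
open Vale.Agent.P281.H716 Vale.Agent.P299.D Vale.Agent.P281.H787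

/-- `tensL` for `IsLogDivisorial`. -/
def TensLD : Prop := ∀ (n p : ℕ) (X Z Y : Type)
  [TopologicalSpace X] [T2Space X] [ChartedSpace (Cm n) X] [IsManifold 𝓘(ℂ, Cm n) ω X]
  [TopologicalSpace Z] [ChartedSpace (Cm n) Z] [IsManifold 𝓘(ℂ, Cm n) ω Z]
  [TopologicalSpace Y] [T2Space Y] [ConnectedSpace Y]
  [ChartedSpace (Cm p) Y] [IsManifold 𝓘(ℂ, Cm p) ω Y]
  (j : Z → X) (_ : J.IsBigOpen (Cm n) j) (f : Z → Y) (_ : ContMDiff 𝓘(ℂ, Cm n) 𝓘(ℂ, Cm p) ω f)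
  (Δ : Set X → ℝ) (_ : J.IsSNC (Cm n) Δ) (Δ' : Set Z → ℝ)
  (_ : J.IsSNC (Cm n) Δ') (_ : J.IsRestriction j Δ Δ')
  (𝒢 : Set (Set Y)) (_ : LD.IsLogDivisorial (Cm n) (Cm p) f 𝒢 Δ')
  (m : ℕ) (K : Set X → ℕ) (_ : ∀ D, (K D : ℝ) = m * Δ D)
  (k : Set Y → ℕ) (_ : ∀ G, (k G : ℝ) ≤ m * J.orbBase' (Cm n) (Cm p) f Δ' G)
  (_ : ∀ G, k G ≠ 0 → G ∈ 𝒢) (σ : Y → ℂ)
  (_ : J.IsSection (Cm p) (fun (D : Set Y) z g => J.IsLocalEq (Cm p) D g z) m k σ),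
  ∃ τ : Ten n (m * p) X, IsTenP (m * p) K τ ∧
    ∀ e z, At e (j z) → f z ∉ ⋃₀ 𝒢 → (∀ D, Δ D ≠ 0 → j z ∉ D) →
      ∀ I, τ e (e (j z)) I = σ (f z) * tT f m (fun z => e (j z)) I z

end Vale.Agent.P281.H498
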