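import Vale.Agent.P281.H498.LD.I
import Vale.Agent.P281.H498.LD.BrC
import Vale.Agent.P281.H716.LD.Rows

/-! P281, the logarithmic case, row LD-2. -/

open scoped Manifold ContDiff Topology ComplexOrder
open Set Filter Vale.Agent.P272.K

noncomputable section

namespace Vale.Agent.P281.H498

open Vale.Agent.P281 Vale.Agent.P281.MF Vale.Agent.P281.H716.LD

theorem isThin_of_log {n p : ℕ} {Z Y : Type}
    [TopologicalSpace Z] [ChartedSpace (Cm n) Z] [IsManifold 𝓘(ℂ, Cm n) ω Z]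
    [TopologicalSpace Y] [T2Space Y] [ConnectedSpace Y]
    [ChartedSpace (Cm p) Y] [IsManifold 𝓘(ℂ, Cm p) ω Y] {f : Z → Y} {𝒢 : Set (Set Y)}
    {Δ' : Set Z → ℝ} (h : IsLogDivisorial (Cm n) (Cm p) f 𝒢 Δ') : IsThin p f 𝒢 := by
  obtain ⟨hfin, hpr, 𝒟, h𝒟, hpre, hdom⟩ := h
  refine thin_of_fin (n := n) hfin hpr h𝒟 hpre fun D hD => ?_
  rcases hdom D hD with ⟨G, -, h1, -⟩ | ⟨h1, -⟩
  · exact h1
  · exact h1

/-- **block TK** in the logarithmic case -/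
theorem tenPartLD_of (tens : TensLD) : TenPartLD := by
  intro n p M X Z Y _ _ _ _ _ _ _ _ _ _ _ _ _ _ χ hχ j hj f hf Δ hsnc Δ' hsnc' hres 𝒢 h𝒢 Dv
    hinj hDv r R hR m hm k hk hkG σ₀ σ₁ hσ₀ hσ₁
  exact tenPart_abs hχ hj hf hsnc (isThin_of_log h𝒢)
    (tens n p X Z Y j hj f hf Δ hsnc Δ' hsnc' hres 𝒢 h𝒢) hinj hDv hR hm hk hkG hσ₀ hσ₁

/-- **the bridge** in the logarithmic case -/
theorem bridgeLD_of (tens : TensLD) : BridgeLD := by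
  intro n p M X Z Y _ _ _ _ _ _ _ _ _ _ _ _ _ _ χ hχ j hj f hf Δ hsnc Δ' hsnc' hres 𝒢 h𝒢 Dv
    hinj hDv r R hR m₀ hm₀ N P R' hcore
  intro m k K hm _ hk hkG σ₀ σ₁ hσ₀ hσ₁ z hzR hzΔ hzS hsurj h0 a₀ ha₀ v hv
  exact bridge_abs hχ hj hf (isThin_of_log h𝒢) hsnc
    (tens n p X Z Y j hj f hf Δ hsnc Δ' hsnc' hres 𝒢 h𝒢) hinj hDv hR hm₀ hcore hm hk hkG hσ₀ hσ₁
    hzR hzΔ hzS hsurj h0 ha₀ hv

end Vale.Agent.P281.H498
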