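import Vale.Agent.P281.H498.KL.BrB

/-! P281, the logarithmic case, row LD-2: block TK from the tensors, for `f` such that the preimage
of the divisors is nowhere dense. -/

open scoped Manifold ContDiff Topology ComplexOrder
open Set Filter Vale.Agent.P272.K

noncomputable section

namespace Vale.Agent.P281.H498

open Vale.Agent.P281 Vale.Agent.P281.MF Vale.Agent.P281.ISO Vale.Agent.P281.H713.SA
open Vale.Agent.P281.H716 Vale.Agent.P299.D Vale.Agent.P281.H787 Vale.Agent.P281.H713.KD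

set_option linter.unusedSectionVars false

/-- `𝒢` is a finite set of prime divisors, with nowhere dense preimage -/
structure IsThin (p : ℕ) {Z Y : Type} [TopologicalSpace Z] [TopologicalSpace Y]
    [ChartedSpace (Cm p) Y] (f : Z → Y) (𝒢 : Set (Set Y)) : Prop where
  fin : 𝒢.Finite
  prime : ∀ G ∈ 𝒢, IsPrimeDivisor (Cm p) G
  dense : Dense {z | f z ∉ ⋃₀ 𝒢}

section

variable {n p M : ℕ} {X Z Y : Type} [TopologicalSpace X] [T2Space X]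
  [ChartedSpace (Cm n) X] [IsManifold 𝓘(ℂ, Cm n) ω X]
  [TopologicalSpace Z] [ChartedSpace (Cm n) Z] [IsManifold 𝓘(ℂ, Cm n) ω Z]
  [TopologicalSpace Y] [T2Space Y] [ConnectedSpace Y]
  [ChartedSpace (Cm p) Y] [IsManifold 𝓘(ℂ, Cm p) ω Y]
  {j : Z → X} {f : Z → Y} {𝒢 : Set (Set Y)}

theorem IsThin.closed (h : IsThin p f 𝒢) : IsClosed (⋃₀ 𝒢) := by
  rw [sUnion_eq_biUnion]
  exact h.fin.isClosed_biUnion fun G hG => (h.prime G hG).1

theorem IsThin.denseX (h : IsThin p f 𝒢) (hj : J.IsBigOpen (Cm n) j) :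
    Dense {x | ∃ z, j z = x ∧ f z ∉ ⋃₀ 𝒢} := by
  obtain ⟨hj0, hj₁, hj₂, hthinj⟩ := id hj
  have hjd : Dense (range j) := by
    intro x
    obtain ⟨h, -, hne, hev⟩ := hthinj x
    rw [mem_closure_iff_frequently]
    intro hcon
    apply hne
    filter_upwards [hcon, hev] with z hz hz'
    exact hz'.1 hz
  have h2 : j '' {z | f z ∉ ⋃₀ 𝒢} = {x | ∃ z, j z = x ∧ f z ∉ ⋃₀ 𝒢} := by
    ext x
    constructor
    · rintro ⟨z, hz, rfl⟩
      exact ⟨z, rfl, hz⟩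
    · rintro ⟨z, rfl, hz⟩
      exact ⟨z, hz, rfl⟩
  rw [← h2]
  exact DenseRange.dense_image (f := j) hjd hj₁.continuous h.dense

/-- `KeyPart` for `IsThin` -/
theorem keyThin {μ : ℕ} (h𝒢 : IsThin p f 𝒢) (hj : J.IsBigOpen (Cm n) j)
    (hf : ContMDiff 𝓘(ℂ, Cm n) 𝓘(ℂ, Cm p) ω f)
    {D : Set X} (hDS : ∀ z, j z ∈ D → f z ∈ ⋃₀ 𝒢) {B : Set X} (hB : IsClosed B) (hBd : Dense Bᶜ)
    {e : Chart n X} {x : X} (h : At e x) {g : Cm n → ℂ} (hg : AnalyticAt ℂ g (e x))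
    (hgD : IsLocalEq (Cm n) D (fun y => g (e y)) x) {a : (Fin (μ * p) → Fin n) → Cm n → ℂ}
    (ha : ∀ I, AnalyticAt ℂ (a I) (e x))
    (hc : ∀ᶠ y in 𝓝 x, ∀ z, j z = y → f z ∉ ⋃₀ 𝒢 → y ∉ B → ∃ c : ℂ, ∀ I,
      a I (e y) = c * tT f μ (fun z => e (j z)) I z)
    (I : Fin (μ * p) → Fin n) (s : Fin μ) (k : Fin n) : ∃ u : Cm n → ℂ, AnalyticAt ℂ u (e x) ∧
      ∀ᶠ z in 𝓝 (e x), cram (fun I => a I z) (fun l => fderiv ℂ g z (Pi.single l 1)) I s k =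
        g z * u z := by
  classical
  have hΩ₀ := h𝒢.denseX hj
  have h𝒢fin := h𝒢.fin
  have h𝒢pr := h𝒢.prime
  obtain ⟨hj0, hj₁, hj₂, hthinj⟩ := hj
  have hfh : ∀ z, HolM (Cm n) (Cm p) f z := fun z => hf z
  have hjh : ∀ z, HolM (Cm n) (Cm n) j z := fun z => hj0 z
  have hS : ∀ y : Y, ∃ g : Y → ℂ, HolV (Cm p) g y ∧ ∀ᶠ y' in 𝓝 y, y' ∈ ⋃₀ 𝒢 ↔ g y' = 0 := by
    intro y
    have hch : ∀ G, ∃ g : Y → ℂ, G ∈ h𝒢fin.toFinset → IsLocalEq (Cm p) G g y := by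
      intro G
      by_cases hG : G ∈ h𝒢fin.toFinset
      · obtain ⟨g, hg⟩ := (h𝒢pr G (h𝒢fin.mem_toFinset.1 hG)).2.1 y
        exact ⟨g, fun _ => hg⟩
      · exact ⟨0, fun h => absurd h hG⟩
    choose g hg using hch
    refine ⟨fun y => ∏ G ∈ h𝒢fin.toFinset, g G y, HolV.prod fun G hG => (hg G hG).holAt, ?_⟩
    have h1 : ∀ᶠ y' in 𝓝 y, ∀ G ∈ h𝒢fin.toFinset, IsLocalEq (Cm p) G (g G) y' := by
      rw [Filter.eventually_all_finset]
      exact fun G hG => (hg G hG).eventually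
    filter_upwards [h1] with y' hy'
    rw [Finset.prod_eq_zero_iff, mem_sUnion]
    constructor
    · rintro ⟨G, hG, hyG⟩
      have hG' := h𝒢fin.mem_toFinset.2 hG
      exact ⟨G, hG', (hy' G hG').mem_iff.1 hyG⟩
    · rintro ⟨G, hG, hyG⟩
      exact ⟨G, h𝒢fin.mem_toFinset.1 hG, (hy' G hG).mem_iff.2 hyG⟩
  set Ω : Set X := {x | ∃ z, j z = x ∧ f z ∉ ⋃₀ 𝒢} ∩ Bᶜ with hΩdef
  have hΩ : Dense Ω := Dense.inter_of_isOpen_right hΩ₀ hBd hB.isOpen_compl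
  exact KD.key_div hjh hj₁ hj₂ hthinj hfh hS hΩ (fun y hy => hy.1) hDS h hg hgD ha (by
    filter_upwards [hc] with y hy z hz hyΩ
    obtain ⟨z', hz', hfz'⟩ := hyΩ.1
    have h1 : z' = z := hj₁.injective (hz'.trans hz.symm)
    obtain ⟨c, hcI⟩ := hy z hz (h1 ▸ hfz') hyΩ.2
    refine ⟨c, fun I => ?_⟩
    rw [hz]
    exact hcI I) (fun A lam I s k => cram_tq A lam I s k) I s k


end

end Vale.Agent.P281.H498
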